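import Vale.Agent.P011UHB.Spec
import Vale.Agent.P011UQ.Tz
import Vale.Agent.P011UP.Par
import Vale.Agent.P011UI.Exa
import Vale.Agent.P011UC.Tr

/-!
Inner forms of type `A` with trivial Tits algebras are split.
-/

set_option autoImplicit false
set_option linter.all false

namespace Vale.Agent.P011UHB1

open Matrix Vale.Agent.P011L Vale.Agent.P011LT Vale.Agent.P183CH Vale.Agent.P011U
  Vale.Agent.P011UHB Vale.Agent.P011LD

theorem std_one {R : RS} {K G : Type} [Field K] [Group G] {Γ : RG R K G} (hΓ : Γ.Ok) (hR : R.Ok)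
    {ψ : G →* G} {σ : K →+* K} {c : Fin R.r → Kˣ} (h : Std Γ ψ σ 1 c 1) (J : Set (Fin R.r)) :
    PJ Γ J ≤ (PJ Γ J).comap ψ := by
  refine sup_le (sup_le (fun v hv => P011UP.GJ_le_PJ (Subgroup.mem_sup_left ?_))
    fun v hv => P011UP.GJ_le_PJ (Subgroup.mem_sup_right ?_)) fun v hv => P011UP.U_le_PJ ?_
  · simpa using P011UP.std_X hΓ h hR (fun γ a _ => a) hv
  · simpa using P011UP.std_T hΓ h hv
  · simpa [RG.U] using P011UP.std_X hΓ h hR (fun γ a _ => a) hv

/-- diagonal matrices -/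
def dg {K n : Type} [Field K] [Fintype n] [DecidableEq n] : (n → Kˣ) →* GL n K :=
  (Units.map (diagonalRingHom n K).toMonoidHom).comp MulEquiv.piUnits.symm.toMonoidHom

theorem dg_conj {K n : Type} [Field K] [Fintype n] [DecidableEq n] (v : n → Kˣ) {a b : n} {u : K}
    {x y : GL n K} (hx : x.1 = 1 + single a b u) (hy : y.1 = 1 + single a b ((v a / v b : Kˣ) * u)) :
    dg v * x * (dg v)⁻¹ = y := by
  refine mul_inv_eq_iff_eq_mul.2 (Units.ext ?_)
  show diagonal (fun i => (v i).1) * x.1 = y.1 * diagonal fun i => (v i).1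
  rw [hx, hy]
  ext i j
  rw [Matrix.mul_add, Matrix.add_mul, Matrix.mul_one, Matrix.one_mul]
  simp only [Matrix.add_apply, diagonal_mul, mul_diagonal, single_apply]
  split_ifs with h
  · obtain ⟨rfl, rfl⟩ := h
    simp
    field_simp
  · simp

theorem hba : HBA := by
  rintro k K _ _ _ _ _ D hD T ⟨n, e, he⟩ hi ⟨g, c, π, ⟨h1, h2, h3⟩, h4⟩
  have hΓ := GG_ok (D := D) (k := K)
  have hR := Chev.R_ok D
  obtain rfl : π = 1 := funext fun σ => by
    obtain ⟨g', c', h⟩ := hi σ fun _ a => a.elim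
    exact (P011UQ.std_uniq hΓ hR h (h1 σ) (map_one σ)).1
  obtain ⟨ψ, -, -, hψ⟩ := P011UI.isa D hD n e he K
  have e1 : ∀ σ τ, g (σ * τ) = T.a σ (g τ) * g σ := fun σ τ => by
    have := h4 σ τ
    rwa [tz, mul_assoc, inv_mul_eq_one] at this
  have xi : ∀ i u u', (GG D K).x (D.R.α i) u = (GG D K).x (D.R.α i) u' → u = u' := fun i u u' a => by
    simpa using congrFun₂ ((hψ i u).1.symm.trans ((congrArg (fun x => (ψ x).1.1) a).trans
      (hψ i u').1)) (e i).castSucc (e i).succ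
  have e2 : ∀ σ τ i, c (σ * τ) i = c σ i * Units.map (σ : K →* K) (c τ i) := fun σ τ i => by
    have := ((h1 (σ * τ)).2 i 1).1
    rw [map_mul, MulAut.mul_apply, ((h1 τ).2 i 1).1, map_mul, map_mul, ((h1 σ).2 _ _).1, e1,
      map_inv] at this
    refine Units.ext (Eq.trans ?_ ((xi i _ _ (by simpa [mul_assoc] using this)).symm.trans ?_)) <;>
      simp
  let d (σ : K ≃ₐ[k] K) (a : Fin (n + 1)) : Kˣ :=
    ∏ j : Fin n, if a ≤ j.castSucc then c σ (e.symm j) else 1
  have d1 : ∀ σ i, d σ (e i).castSucc / d σ (e i).succ = c σ i := fun σ i => by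
    rw [← Finset.prod_div_distrib, Finset.prod_eq_single (e i) (fun j _ a => ?_) (by simp)]
    · simp [Fin.castSucc_lt_succ.not_ge]
    · rw [div_eq_one]
      exact if_congr (by simp only [Fin.le_def, Fin.val_castSucc, Fin.val_succ]; omega) rfl rfl
  have d2 : ∀ σ τ, dg (d (σ * τ)) = dg (d σ) * gm (σ : K →+* K) (dg (d τ)) := fun σ τ => by
    refine Units.ext (Matrix.ext fun a b => ?_)
    show diagonal (fun i => (d (σ * τ) i).1) a b =
      (diagonal (fun i => (d σ i).1) * (diagonal fun i => (d τ i).1).map σ) a b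
    rw [diagonal_map (map_zero σ), diagonal_mul_diagonal]
    congr 2
    funext i
    simp only [d, Units.coe_prod, map_prod, ← Finset.prod_mul_distrib]
    exact Finset.prod_congr rfl fun j _ => by split_ifs <;> simp [e2]
  let A (σ : K ≃ₐ[k] K) : GL (Fin (n + 1)) K := (ψ (g σ)).1 * dg (d σ)
  have mp : ∀ (σ : K ≃ₐ[k] K) (a b : Fin (n + 1)) (u : K) (x : GL (Fin (n + 1)) K),
      x.1 = 1 + single a b u → (gm (σ : K →+* K) x).1 = 1 + single a b (σ u) := fun σ a b u x h => by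
    show x.1.map σ = _
    rw [h]
    ext i j
    simp [one_apply, single_apply, apply_ite σ]
  have a1 : ∀ σ x, (ψ (T.a σ x)).1 = A σ * gm (σ : K →+* K) (ψ x).1 * (A σ)⁻¹ := fun σ =>
    DFunLike.congr_fun (MonoidHom.eq_of_eqOn_dense (P011UI.gen_top D K)
      (f := (SA K _).subtype.comp (ψ.toMonoidHom.comp (T.a σ).toMonoidHom))
      (g := (MulAut.conj (A σ)).toMonoidHom.comp ((gm (σ : K →+* K)).comp
        ((SA K _).subtype.comp ψ.toMonoidHom))) (by
      rintro x ⟨i, t, a | a⟩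
      · obtain rfl : x = (GG D K).x (D.R.α i) t :=
          Subtype.ext (Units.ext (a.trans (congrArg Units.val (GG_e i t)).symm))
        show (ψ (T.a σ _)).1 = A σ * gm (σ : K →+* K) (ψ _).1 * (A σ)⁻¹
        rw [((h1 σ).2 i t).1, map_mul, map_mul, map_inv]
        have := dg_conj (d σ) (mp σ _ _ _ _ (hψ i t).1) (hψ i _).1
        rw [d1] at this
        simp only [A, Subgroup.coe_mul, Subgroup.coe_inv, Pi.one_apply, Equiv.Perm.one_apply, ← this]
        group
      · obtain rfl : x = (GG D K).x (-D.R.α i) t :=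
          Subtype.ext (Units.ext (a.trans (congrArg Units.val (GG_f i t)).symm))
        show (ψ (T.a σ _)).1 = A σ * gm (σ : K →+* K) (ψ _).1 * (A σ)⁻¹
        rw [((h1 σ).2 i t).2, map_mul, map_mul, map_inv]
        have := dg_conj (d σ) (mp σ _ _ _ _ (hψ i t).2) (hψ i _).2
        rw [← inv_div, d1] at this
        simp only [A, Subgroup.coe_mul, Subgroup.coe_inv, Pi.one_apply, Equiv.Perm.one_apply, ← this]
        group))
  obtain ⟨m, hm⟩ := h90 (Γ := ⊤) (fun σ => (A σ).1) (fun σ _ τ _ => congrArg Units.val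
    (show A (σ * τ) = A σ * gm (σ : K →+* K) (A τ) by
      simp only [A, e1, map_mul, Subgroup.coe_mul, a1, d2]
      group)) (((P011UQ.near_op h3).and (P011UQ.tw_op T)).imp fun σ _ a => by
    have g1 : g σ = 1 := by rw [← h2, ← (a.1 1).1, one_mul]
    have c1 : ∀ i, c σ i = 1 := fun i => Units.ext (by
      have := ((h1 σ).2 i 1).1
      rw [a.2, fm_x, g1, one_mul, inv_one, mul_one] at this
      simpa using (xi i _ _ this).symm)
    have : d σ = 1 := funext fun a => by simp [d, c1]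
    simp [A, g1, this])
  let v : Fin (n + 1) → Kˣ := Pi.mulSingle 0 (GeneralLinearGroup.det m)⁻¹
  have v1 : m * dg v ∈ SA K (n + 1) := mem_SA.2 (by
    show (m.1 * diagonal fun i => (v i).1).det = 1
    rw [det_mul, det_diagonal, ← Units.coe_prod, Finset.prod_pi_mulSingle']
    simp [m.det_ne_zero])
  let w (σ : K ≃ₐ[k] K) : Fin (n + 1) → Kˣ := v⁻¹ * fun i => Units.map (σ : K →* K) (v i)
  have w1 : ∀ σ z, (ψ ((ψ.symm ⟨_, v1⟩)⁻¹ * T.a σ (ψ.symm ⟨_, v1⟩ * z * (ψ.symm ⟨_, v1⟩)⁻¹) *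
      ψ.symm ⟨_, v1⟩)).1 = dg (w σ) * gm (σ : K →+* K) (ψ z).1 * (dg (w σ))⁻¹ := fun σ z => by
    have b1 : A σ = m * (gm (σ : K →+* K) m)⁻¹ := eq_mul_inv_of_mul_eq (Units.ext (hm σ trivial))
    have b2 : gm (σ : K →+* K) (dg v) = dg fun i => Units.map (σ : K →* K) (v i) :=
      Units.ext (diagonal_map (map_zero σ))
    rw [map_mul, map_mul, Subgroup.coe_mul, Subgroup.coe_mul, a1]
    simp only [map_mul, map_inv, ψ.apply_symm_apply, Subgroup.coe_mul, Subgroup.coe_inv, b1, b2, w]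
    group
  refine ⟨ψ.symm ⟨_, v1⟩, fun σ p hp => ?_⟩
  rw [← P011UC.cj_a]
  refine std_one hΓ hR (σ := σ) (ψ := ((P011UC.cj T (ψ.symm ⟨_, v1⟩)).a σ).toMonoidHom)
    (c := fun i => w σ (e i).castSucc / w σ (e i).succ) ⟨fun _ _ => rfl, fun i u => ?_⟩ ∅ hp
  refine ⟨ψ.injective (Subtype.ext ?_), ψ.injective (Subtype.ext ?_)⟩
  · rw [one_mul, inv_one, mul_one]
    exact (congrArg (fun x => (ψ x).1) (P011UC.cj_a T _ σ _)).trans ((w1 σ _).trans
      (dg_conj _ (mp σ _ _ _ _ (hψ i u).1) (hψ i _).1))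
  · rw [one_mul, inv_one, mul_one, inv_div]
    exact (congrArg (fun x => (ψ x).1) (P011UC.cj_a T _ σ _)).trans ((w1 σ _).trans
      (dg_conj _ (mp σ _ _ _ _ (hψ i u).2) (hψ i _).2))

end Vale.Agent.P011UHB1
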